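import Vale.Agent.P308.Avg
import Vale.Agent.P308.Pot
import Vale.Agent.P308.Case1
import Vale.Agent.P308.Case2
import Vale.Agent.P308.Gap
import Vale.Agent.P308.Mix
import Vale.Agent.P308.Hoef
import Vale.Agent.P308.Init
import Vale.Agent.P308.Step
import Vale.Agent.P308.Ann
import Vale.Agent.P308.Law
import Vale.Agent.P308.Machine

/-!
An FPRAS for the number of perfect matchings of an arbitrary finite simple graph.
-/

namespace Vale.Agent.Results.P308.Fpras

open Vale.Agent.P308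

theorem result :
    ∃ (f : List (List Bool) × List ℕ × List Bool → ℕ × ℕ) (P : Polynomial ℕ),
    (∃ M : Turing.TM2ComputableInPolyTime codeIn codeOut f, ∀ k, Finite (M.tm.Γ k)) ∧
    ∀ (n : ℕ) (G : SimpleGraph (Fin n)) [DecidableRel G.Adj] (ε δ : ℚ),
      0 < ε → ε < 1 → 0 < δ → δ < 1 →
      ∀ T : ℕ, T = P.eval (n + ⌈ε⁻¹⌉₊ + Nat.size ⌈δ⁻¹⌉₊) →
      ∀ Z : ℕ, Z = {M : G.Subgraph | M.IsPerfectMatching}.ncard →
      1 - δ ≤ ((Finset.univ.filter fun ρ : Fin T → Bool =>
        (1 - ε) * Z ≤ estimate f G ε δ (List.ofFn ρ) ∧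
        estimate f G ε δ (List.ofFn ρ) ≤ (1 + ε) * Z).card : ℚ) / 2 ^ T :=
  final fun n b adj he hn hs hq =>
    law b adj hq hn he
      (gap _ (avg _) (pot _) (oo _ (avg _)) (ee _ (avg _)) (oe _ (avg _)) (eo _ (avg _)))
      mix hoef init (step b hq)
      (ann b adj hq hn hs (Fintype.card_pos_iff.1 ((init n he).1 ▸ Nat.doubleFactorial_pos _)))

end Vale.Agent.Results.P308.Fpras
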